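import Vale.Agent.P073.H608.TopAll
import Vale.Agent.P073.H267.K2C
import Vale.Agent.P073.H235.PreFlat
import Vale.Agent.P073.H523.PreBeam
import Vale.Agent.P073.H333.SpecPre2

/-!
# P073: all exponents `1 ≤ p < 3`
-/

namespace Vale.Agent.P073.H309

open Vale.Agent.P073 Vale.Agent.P073.St Vale.Agent.P073.H608

theorem open23 {p : ℝ} (hp : 2 ≤ p) (hp3 : p < 3) : Open23 p where
  k2c := _root_.P073.H267.k2c (by linarith)
  preFlat := H235.specPreFlat (by linarith) hp3
  preBeam := H523.specPreBeam (by linarith) hp3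

/-- the full theorem for `1 ≤ p < 3` -/
theorem full_below_three {p : ℝ} (hp : 1 ≤ p) (hp3 : p < 3) : Full p :=
  full_one_three H333.specPEa (fun _ h h3 => open23 h h3) hp hp3

end Vale.Agent.P073.H309
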