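import Vale.Agent.P073.H340.Last
import Vale.Agent.P073.H228.EdgeP5G
import Vale.Agent.P073.H579.SupRow

/-!
# P073: all exponents `1 ≤ p`
-/

namespace Vale.Agent.P073.H309

open Vale.Agent.P073.H608 (Full)

/-- the full theorem for `1 ≤ p` -/
theorem full_all {p : ℝ} (hp : 1 ≤ p) : Full p :=
  H340.full_of_loc_sup (fun C₀ _ => Top880.locAll C₀) (fun _ h => H579.K3.supRow h) hp

end Vale.Agent.P073.H309
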